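import Vale.Agent.Lib.P225.Donnelly

namespace Vale.Agent.Results.P225.DonnellyCones

/-- Eigenvalue count at integer thresholds for the Einstein products of two round spheres
(the cross-sections of the cones in the known real-exponent counterexamples), against the
Euclidean dimension count, in the range `2 * k + 1 ≤ 3 * n` with `n = p + q + 1`. -/
theorem result (p q k : ℕ) (hp : 2 ≤ p) (hq : 2 ≤ q) (hk : 1 ≤ k)
    (hk2 : 2 * k + 1 ≤ 3 * (p + q + 1)) :
    ∃ A : Finset (ℕ × ℕ),
      (∀ i j : ℕ, (i, j) ∈ A ↔
        (p + q - 1) * ((q - 1) * (i * (i + p - 1)) + (p - 1) * (j * (j + q - 1)))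
          ≤ (p - 1) * (q - 1) * (k * (k + p + q - 1))) ∧
      ∑ x ∈ A, ((p + x.1).choose p - (p + x.1 - 2).choose p)
          * ((q + x.2).choose q - (q + x.2 - 2).choose q)
        ≤ (p + q + k).choose k + (p + q + k - 1).choose (k - 1) :=
  Vale.Agent.Lib.P225.donnelly_family p q k hp hq hk hk2

end Vale.Agent.Results.P225.DonnellyCones
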