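import Vale.Agent.Lib.P225.MainSharp

namespace Vale.Agent.Results.P225.RotSymSharp

open Vale.Agent.Lib.P225

/-- Sharp dimension bound on rotationally symmetric manifolds with nonnegative Ricci curvature.
Let `n ≥ 3` and let `g = dr^2 + f(r)^2 g_S` be a rotationally symmetric metric on `ℝ^n`
(`f(0) = 0`, `f'(0) = 1`, `f > 0` on `(0, ∞)`) with nonnegative Ricci curvature, that is
`f'' ≤ 0` on `(0, ∞)`. Let `α` be a real number with `f(r0) ≤ α r0` for some `r0 > 0`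
(`α = 1` always qualifies), let `d ≥ 0` be real and let `L ≥ 0` be an integer with
`α^2 d (d + n - 2) < (L + 1) (L + n - 1)`. Then every linearly independent family of
`g`-harmonic functions `u_i` with `|u_i(x)| ≤ C_i (1 + d_g(o, x))^d` (here `d_g(o, x) = ‖x‖`)
has at most `h_L(ℝ^n)` members: at most `1` if `L = 0` and at most
`C(n + L - 1, L) + C(n + L - 2, L - 1)` if `L ≥ 1`. -/
theorem result (n : ℕ) (hn : 3 ≤ n) (f : ℝ → ℝ)
    (hf : ContDiff ℝ 2 f) (hf0 : f 0 = 0) (hf1 : deriv f 0 = 1)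
    (hpos : ∀ r, 0 < r → 0 < f r)
    (hric : ∀ r, 0 < r → deriv (deriv f) r ≤ 0)
    (α r0 : ℝ) (hr0 : 0 < r0) (hfα : f r0 ≤ α * r0)
    (d : ℝ) (hd : 0 ≤ d) (L : ℕ)
    (hL : α ^ 2 * (d * (d + (n : ℝ) - 2)) < ((L : ℝ) + 1) * ((L : ℝ) + (n : ℝ) - 1))
    (ι : Type) [Fintype ι] (u : ι → EuclideanSpace ℝ (Fin n) → ℝ)
    (hu : ∀ i, ContDiff ℝ 2 (u i))
    (hharm : ∀ i x, x ≠ 0 → rotLaplacian n f (u i) x = 0)
    (hgrowth : ∀ i, ∃ C, ∀ x, |u i x| ≤ C * (1 + ‖x‖) ^ d)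
    (hlin : LinearIndependent ℝ u) :
    (L = 0 → Fintype.card ι ≤ 1) ∧
      (1 ≤ L → Fintype.card ι ≤ (n + L - 1).choose L + (n + L - 2).choose (L - 1)) := by
  obtain ⟨m, rfl⟩ : ∃ m, n = m + 3 := ⟨n - 3, by omega⟩
  have hL' : α ^ 2 * (d * (d + m + 1)) < ((L : ℝ) + 1) * (L + m + 2) := by
    push_cast at hL
    have e1 : d + ((m : ℝ) + 3) - 2 = d + m + 1 := by ring
    have e2 : (L : ℝ) + ((m : ℝ) + 3) - 1 = L + m + 2 := by ring
    rwa [e1, e2] at hL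
  have key := rotsym_sharp_aux m f hf hf0 hf1 hpos hric α r0 hr0 hfα d hd L hL' u hu hharm
    hgrowth hlin
  constructor
  · intro h0
    subst h0
    rw [Finset.sum_range_one, harmSub_of_lt_two (by norm_num), finrank_homog] at key
    simpa using key
  · intro h1
    rwa [sum_finrank_harmSub (by omega) L h1] at key

/-- First consequence (`α = 1`, which is allowed because `f(r) ≤ r`): Yau's bound
`h_k(M) ≤ h_k(ℝ^n)` for every integer `k ≥ 1`. -/
theorem yau_bound (n k : ℕ) (hn : 3 ≤ n) (hk : 1 ≤ k) (f : ℝ → ℝ)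
    (hf : ContDiff ℝ 2 f) (hf0 : f 0 = 0) (hf1 : deriv f 0 = 1)
    (hpos : ∀ r, 0 < r → 0 < f r)
    (hric : ∀ r, 0 < r → deriv (deriv f) r ≤ 0)
    (ι : Type) [Fintype ι] (u : ι → EuclideanSpace ℝ (Fin n) → ℝ)
    (hu : ∀ i, ContDiff ℝ 2 (u i))
    (hharm : ∀ i x, x ≠ 0 → rotLaplacian n f (u i) x = 0)
    (hgrowth : ∀ i, ∃ C, ∀ x, |u i x| ≤ C * (1 + ‖x‖) ^ k)
    (hlin : LinearIndependent ℝ u) :
    Fintype.card ι ≤ (n + k - 1).choose k + (n + k - 2).choose (k - 1) := by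
  have h1 : f 1 ≤ 1 * 1 := by
    simpa using le_self_of_concave hf hf0 hf1 hric (r := 1) zero_le_one
  have hn' : (3 : ℝ) ≤ n := by exact_mod_cast hn
  have hk' : (0 : ℝ) ≤ k := by positivity
  refine (result n hn f hf hf0 hf1 hpos hric 1 1 one_pos h1 k hk' k ?_ ι u hu hharm ?_ hlin).2 hk
  · nlinarith
  · intro i
    obtain ⟨C, hC⟩ := hgrowth i
    exact ⟨C, fun x => by rw [Real.rpow_natCast]; exact hC x⟩

/-- Second consequence (gap and rigidity): if the manifold is not flat, that is `f(r0) < r0`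
for some `r0 > 0`, then `h_k(M) ≤ h_{k-1}(ℝ^n)` for every integer `k ≥ 1`: only the constants
for `k = 1`, and at most `C(n + k - 2, k - 1) + C(n + k - 3, k - 2)` for `k ≥ 2`. -/
theorem gap (n k : ℕ) (hn : 3 ≤ n) (hk : 1 ≤ k) (f : ℝ → ℝ)
    (hf : ContDiff ℝ 2 f) (hf0 : f 0 = 0) (hf1 : deriv f 0 = 1)
    (hpos : ∀ r, 0 < r → 0 < f r)
    (hric : ∀ r, 0 < r → deriv (deriv f) r ≤ 0)
    (r0 : ℝ) (hr0 : 0 < r0) (hflat : f r0 < r0)
    (ι : Type) [Fintype ι] (u : ι → EuclideanSpace ℝ (Fin n) → ℝ)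
    (hu : ∀ i, ContDiff ℝ 2 (u i))
    (hharm : ∀ i x, x ≠ 0 → rotLaplacian n f (u i) x = 0)
    (hgrowth : ∀ i, ∃ C, ∀ x, |u i x| ≤ C * (1 + ‖x‖) ^ k)
    (hlin : LinearIndependent ℝ u) :
    (k = 1 → Fintype.card ι ≤ 1) ∧
      (2 ≤ k → Fintype.card ι ≤ (n + k - 2).choose (k - 1) + (n + k - 3).choose (k - 2)) := by
  have hfr0 := hpos r0 hr0
  have hα0 : 0 < f r0 / r0 := div_pos hfr0 hr0
  have hα1 : f r0 / r0 < 1 := by rw [div_lt_one hr0]; exact hflat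
  have hfα : f r0 ≤ f r0 / r0 * r0 := by rw [div_mul_cancel₀ _ hr0.ne']
  have hn' : (3 : ℝ) ≤ n := by exact_mod_cast hn
  have hk' : (1 : ℝ) ≤ k := by exact_mod_cast hk
  have hcast : ((k - 1 : ℕ) : ℝ) = (k : ℝ) - 1 := by
    rw [Nat.cast_sub hk]; simp
  have hsq : (f r0 / r0) ^ 2 < 1 := by nlinarith
  have hkn : (0 : ℝ) < (k : ℝ) * ((k : ℝ) + (n : ℝ) - 2) := by
    apply mul_pos <;> linarith
  have hL : (f r0 / r0) ^ 2 * ((k : ℝ) * ((k : ℝ) + (n : ℝ) - 2))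
      < (((k - 1 : ℕ) : ℝ) + 1) * (((k - 1 : ℕ) : ℝ) + (n : ℝ) - 1) := by
    rw [hcast]
    have e : ((k : ℝ) - 1 + 1) * ((k : ℝ) - 1 + (n : ℝ) - 1) = (k : ℝ) * ((k : ℝ) + (n : ℝ) - 2) := by
      ring
    rw [e]
    nlinarith
  have hg : ∀ i, ∃ C, ∀ x, |u i x| ≤ C * (1 + ‖x‖) ^ (k : ℝ) := by
    intro i
    obtain ⟨C, hC⟩ := hgrowth i
    exact ⟨C, fun x => by rw [Real.rpow_natCast]; exact hC x⟩
  have key := result n hn f hf hf0 hf1 hpos hric (f r0 / r0) r0 hr0 hfα k (by linarith) (k - 1) hL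
    ι u hu hharm hg hlin
  constructor
  · intro h1
    exact key.1 (by omega)
  · intro h2
    have h3 := key.2 (by omega)
    have e1 : n + (k - 1) - 1 = n + k - 2 := by omega
    have e2 : n + (k - 1) - 2 = n + k - 3 := by omega
    have e3 : k - 1 - 1 = k - 2 := by omega
    rwa [e1, e2, e3] at h3

/-- Third consequence (rigidity): if equality holds in Yau's bound for some integer `k ≥ 1`,
then `f(r) = r` for all `r ≥ 0`, that is, the manifold is flat `ℝ^n`. -/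
theorem rigidity (n k : ℕ) (hn : 3 ≤ n) (hk : 1 ≤ k) (f : ℝ → ℝ)
    (hf : ContDiff ℝ 2 f) (hf0 : f 0 = 0) (hf1 : deriv f 0 = 1)
    (hpos : ∀ r, 0 < r → 0 < f r)
    (hric : ∀ r, 0 < r → deriv (deriv f) r ≤ 0)
    (ι : Type) [Fintype ι] (u : ι → EuclideanSpace ℝ (Fin n) → ℝ)
    (hu : ∀ i, ContDiff ℝ 2 (u i))
    (hharm : ∀ i x, x ≠ 0 → rotLaplacian n f (u i) x = 0)
    (hgrowth : ∀ i, ∃ C, ∀ x, |u i x| ≤ C * (1 + ‖x‖) ^ k)
    (hlin : LinearIndependent ℝ u)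
    (hcard : Fintype.card ι = (n + k - 1).choose k + (n + k - 2).choose (k - 1)) :
    ∀ r, 0 ≤ r → f r = r := by
  intro r hr
  by_contra hne
  have hr0 : 0 < r := by
    rcases hr.lt_or_eq with h | h
    · exact h
    · exact absurd (by rw [← h, hf0]) hne
  have hflat : f r < r := lt_of_le_of_ne (le_self_of_concave hf hf0 hf1 hric hr) hne
  have key := gap n k hn hk f hf hf0 hf1 hpos hric r hr0 hflat ι u hu hharm hgrowth hlin
  rcases Nat.lt_or_ge k 2 with h2 | h2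
  · have h1 : k = 1 := by omega
    have h3 := key.1 h1
    subst h1
    rw [hcard] at h3
    simp at h3
    omega
  · have h3 := key.2 h2
    rw [hcard] at h3
    obtain ⟨j, rfl⟩ : ∃ j, k = j + 2 := ⟨k - 2, by omega⟩
    obtain ⟨m, rfl⟩ : ∃ m, n = m + 3 := ⟨n - 3, by omega⟩
    have e1 : m + 3 + (j + 2) - 1 = m + j + 3 + 1 := by omega
    have e2 : m + 3 + (j + 2) - 2 = m + j + 3 := by omega
    have e3 : m + 3 + (j + 2) - 3 = m + j + 2 := by omega
    have e4 : j + 2 - 1 = j + 1 := by omega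
    have e5 : j + 2 - 2 = j := by omega
    rw [e1, e2, e3, e4, e5] at h3
    have h4 : (m + j + 3 + 1).choose (j + 2)
        = (m + j + 3).choose (j + 1) + (m + j + 3).choose (j + 2) := Nat.choose_succ_succ _ _
    have h5 : (m + j + 3).choose (j + 1)
        = (m + j + 2).choose j + (m + j + 2).choose (j + 1) := Nat.choose_succ_succ (m + j + 2) j
    have h6 : 0 < (m + j + 3).choose (j + 2) := Nat.choose_pos (by omega)
    omega

end Vale.Agent.Results.P225.RotSymSharp
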