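import Vale.Agent.Lib.P225.MainReal

namespace Vale.Agent.Results.P225.RotSymYauReal

open Vale.Agent.Lib.P225

/-- Yau's dimension comparison on rotationally symmetric manifolds, for real growth exponents.
Let `n ≥ 3` and let `g = dr^2 + f(r)^2 g_S` be a rotationally symmetric metric on `ℝ^n`
(`f(0) = 0`, `f'(0) = 1`, `f > 0` on `(0, ∞)`) with nonnegative Ricci curvature, that is
`f'' ≤ 0` on `(0, ∞)`. Then for every real `d ≥ 1`, every linearly independent family of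
`g`-harmonic functions `u_i` with `|u_i(x)| ≤ C_i (1 + d_g(o, x))^d` (here `d_g(o, x) = ‖x‖`)
has at most `h_d(ℝ^n) = C(n + k - 1, k) + C(n + k - 2, k - 1)` members, `k` the integer part
of `d`. -/
theorem result (n : ℕ) (hn : 3 ≤ n) (d : ℝ) (hd : 1 ≤ d) (f : ℝ → ℝ)
    (hf : ContDiff ℝ 2 f) (hf0 : f 0 = 0) (hf1 : deriv f 0 = 1)
    (hpos : ∀ r, 0 < r → 0 < f r)
    (hric : ∀ r, 0 < r → deriv (deriv f) r ≤ 0)
    (ι : Type) [Fintype ι] (u : ι → EuclideanSpace ℝ (Fin n) → ℝ)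
    (hu : ∀ i, ContDiff ℝ 2 (u i))
    (hharm : ∀ i x, x ≠ 0 → rotLaplacian n f (u i) x = 0)
    (hgrowth : ∀ i, ∃ C, ∀ x, |u i x| ≤ C * (1 + ‖x‖) ^ d)
    (hlin : LinearIndependent ℝ u) :
    Fintype.card ι ≤ (n + ⌊d⌋₊ - 1).choose ⌊d⌋₊ + (n + ⌊d⌋₊ - 2).choose (⌊d⌋₊ - 1) := by
  obtain ⟨m, rfl⟩ : ∃ m, n = m + 3 := ⟨n - 3, by omega⟩
  exact rotsym_yau_real_aux m d hd f hf hf0 hf1 hpos hric u hu hharm hgrowth hlin

end Vale.Agent.Results.P225.RotSymYauReal
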